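import Mathlib

set_option autoImplicit false

namespace Vale.Agent.Results.P262.LowerBound

open Finset

/-- The squared Euclidean norm on `ℝ^d`. -/
def sqn {d : ℕ} (x : Fin d → ℝ) : ℝ := ∑ j, (x j) ^ 2

/-- `forcedZ C L a b`: starting from the integer vector `(a, b)`, every signing of the list `L` of
integer vectors has an initial partial sum whose squared norm is at least `C`. -/
def forcedZ (C : ℤ) : List (ℤ × ℤ) → ℤ → ℤ → Bool
  | [], a, b => decide (C ≤ a * a + b * b)
  | p :: L, a, b => decide (C ≤ a * a + b * b) ||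
      (forcedZ C L (a + p.1) (b + p.2) && forcedZ C L (a - p.1) (b - p.2))

theorem forcedZ_spec (C : ℤ) : ∀ (L : List (ℤ × ℤ)) (a b : ℤ), forcedZ C L a b = true →
    ∀ ε : ℕ → ℤ, (∀ i, ε i = 1 ∨ ε i = -1) → ∃ k ≤ L.length,
      C ≤ (a + ∑ i ∈ range k, ε i * (L.getD i (0, 0)).1) ^ 2
        + (b + ∑ i ∈ range k, ε i * (L.getD i (0, 0)).2) ^ 2 := by
  intro L
  induction L with
  | nil =>
    intro a b h ε _
    refine ⟨0, le_refl _, ?_⟩
    simp only [forcedZ, decide_eq_true_eq] at h
    simp only [range_zero, sum_empty, add_zero]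
    nlinarith
  | cons p L ih =>
    intro a b h ε hε
    simp only [forcedZ, Bool.or_eq_true, decide_eq_true_eq, Bool.and_eq_true] at h
    rcases h with h | ⟨h1, h2⟩
    · refine ⟨0, Nat.zero_le _, ?_⟩
      simp only [range_zero, sum_empty, add_zero]
      nlinarith
    · rcases hε 0 with h0 | h0
      · obtain ⟨k, hk, hC⟩ := ih _ _ h1 (fun i => ε (i + 1)) (fun i => hε (i + 1))
        refine ⟨k + 1, by simpa using hk, ?_⟩
        rw [Finset.sum_range_succ', Finset.sum_range_succ']
        simp only [List.getD_cons_succ, List.getD_cons_zero, h0, one_mul]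
        have e1 : a + (∑ i ∈ range k, ε (i + 1) * (L.getD i (0, 0)).1 + p.1)
            = a + p.1 + ∑ i ∈ range k, ε (i + 1) * (L.getD i (0, 0)).1 := by ring
        have e2 : b + (∑ i ∈ range k, ε (i + 1) * (L.getD i (0, 0)).2 + p.2)
            = b + p.2 + ∑ i ∈ range k, ε (i + 1) * (L.getD i (0, 0)).2 := by ring
        rw [e1, e2]
        exact hC
      · obtain ⟨k, hk, hC⟩ := ih _ _ h2 (fun i => ε (i + 1)) (fun i => hε (i + 1))
        refine ⟨k + 1, by simpa using hk, ?_⟩
        rw [Finset.sum_range_succ', Finset.sum_range_succ']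
        simp only [List.getD_cons_succ, List.getD_cons_zero, h0]
        have e1 : a + (∑ i ∈ range k, ε (i + 1) * (L.getD i (0, 0)).1 + -1 * p.1)
            = a - p.1 + ∑ i ∈ range k, ε (i + 1) * (L.getD i (0, 0)).1 := by ring
        have e2 : b + (∑ i ∈ range k, ε (i + 1) * (L.getD i (0, 0)).2 + -1 * p.2)
            = b - p.2 + ∑ i ∈ range k, ε (i + 1) * (L.getD i (0, 0)).2 := by ring
        rw [e1, e2]
        exact hC

/-- Nine planar vectors, scaled by `100000`. -/
def planar : List (ℤ × ℤ) :=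
  [(-71790, 69612), (-96056, -27802), (-96423, -26500), (95681, 29065), (-76166, 64794),
   (-69304, 72087), (-99776, -6656), (92172, 38779), (-98693, 16104)]

theorem planar_forced : forcedZ 29900000000 planar 0 0 = true := by decide

theorem planar_small : ∀ i : ℕ,
    (planar.getD i (0, 0)).1 ^ 2 + (planar.getD i (0, 0)).2 ^ 2 ≤ 10000000000 := by
  intro i
  by_cases hi : i < 9
  · interval_cases i <;> simp [planar]
  · rw [List.getD_eq_default _ _ (by simpa [planar] using hi)]
    norm_num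

/-- first coordinates of the planar vectors -/
noncomputable def pa (m : ℕ) : ℝ := ((planar.getD m (0, 0)).1 : ℝ) / 100000

/-- second coordinates of the planar vectors -/
noncomputable def pb (m : ℕ) : ℝ := ((planar.getD m (0, 0)).2 : ℝ) / 100000

/-- The sequence in `ℝ^(e+2)`: first the unit vectors of the coordinates `2, ..., e+1`, then the
nine planar vectors placed in the coordinates `0, 1`. -/
noncomputable def vec (e : ℕ) (i : ℕ) : Fin (e + 2) → ℝ :=
  if i < e then (fun j => if j.val = i + 2 then 1 else 0)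
  else (fun j => if j.val = 0 then pa (i - e) else if j.val = 1 then pb (i - e) else 0)

theorem sqn_split {e : ℕ} (x : Fin (e + 2) → ℝ) :
    sqn x = (x 0) ^ 2 + (x 1) ^ 2 + ∑ j : Fin e, (x j.succ.succ) ^ 2 := by
  unfold sqn
  rw [Fin.sum_univ_succ, Fin.sum_univ_succ]
  have : ((0 : Fin (e + 1)).succ : Fin (e + 2)) = 1 := rfl
  rw [this]
  ring

theorem vec_small (e i : ℕ) : sqn (vec e i) ≤ 1 := by
  rw [sqn_split]
  by_cases hi : i < e
  · simp only [vec, if_pos hi]
    have h0 : ((0 : Fin (e + 2)).val = i + 2) = False := by simp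
    have h1 : ((1 : Fin (e + 2)).val = i + 2) = False := by
      simp only [Fin.val_one, eq_iff_iff, iff_false]; omega
    simp only [h0, h1, if_false, Fin.val_succ]
    have : ∑ j : Fin e, (if j.val + 1 + 1 = i + 2 then (1 : ℝ) else 0) ^ 2
        = ∑ j : Fin e, (if j = ⟨i, hi⟩ then (1 : ℝ) else 0) := by
      apply Finset.sum_congr rfl
      intro j _
      by_cases hj : j = ⟨i, hi⟩
      · subst hj; simp
      · have : ¬ (j.val + 1 + 1 = i + 2) := by
          intro h
          apply hj
          apply Fin.ext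
          simp only
          omega
        rw [if_neg this, if_neg hj]
        norm_num
    rw [this]
    simp
  · simp only [vec, if_neg hi]
    have hs := planar_small (i - e)
    have hs' : ((planar.getD (i - e) (0, 0)).1 : ℝ) ^ 2 + ((planar.getD (i - e) (0, 0)).2 : ℝ) ^ 2
        ≤ 10000000000 := by exact_mod_cast hs
    simp only [Fin.val_zero, Fin.val_one, Fin.val_succ, if_true]
    have hz : ∀ j : Fin e, (if j.val + 1 + 1 = 0 then pa (i - e)
        else if j.val + 1 + 1 = 1 then pb (i - e) else 0) = 0 := by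
      intro j
      rw [if_neg (by omega), if_neg (by omega)]
    simp only [hz]
    simp only [one_ne_zero, if_false, pa, pb]
    simp only [ne_eq, OfNat.ofNat_ne_zero, not_false_eq_true, zero_pow, sum_const_zero, add_zero]
    rw [div_pow, div_pow]
    have : ((planar.getD (i - e) (0, 0)).1 : ℝ) ^ 2 / 100000 ^ 2
        + ((planar.getD (i - e) (0, 0)).2 : ℝ) ^ 2 / 100000 ^ 2
        = (((planar.getD (i - e) (0, 0)).1 : ℝ) ^ 2 + ((planar.getD (i - e) (0, 0)).2 : ℝ) ^ 2)
          / 10000000000 := by ring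
    rw [this, div_le_one (by norm_num)]
    exact hs'

theorem main (e : ℕ) (ε : ℕ → ℤ) (hε : ∀ i, ε i = 1 ∨ ε i = -1) :
    ∃ k ≤ e + 9, ((e + 2 : ℕ) : ℝ) + 99 / 100 ≤ sqn (∑ i ∈ range k, (ε i : ℝ) • vec e i) := by
  obtain ⟨k, hk, hC⟩ := forcedZ_spec _ planar 0 0 planar_forced (fun m => ε (e + m))
    (fun m => hε (e + m))
  refine ⟨e + k, by simpa [planar] using hk, ?_⟩
  set A : ℤ := ∑ i ∈ range k, ε (e + i) * (planar.getD i (0, 0)).1 with hA
  set B : ℤ := ∑ i ∈ range k, ε (e + i) * (planar.getD i (0, 0)).2 with hB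
  have hcoord : ∀ j : Fin (e + 2), (∑ i ∈ range (e + k), (ε i : ℝ) • vec e i) j
      = ∑ i ∈ range e, (ε i : ℝ) * (if j.val = i + 2 then 1 else 0)
        + ∑ m ∈ range k, (ε (e + m) : ℝ) *
          (if j.val = 0 then pa m else if j.val = 1 then pb m else 0) := by
    intro j
    rw [Finset.sum_apply, Finset.sum_range_add]
    congr 1
    · apply Finset.sum_congr rfl
      intro i hi
      simp only [Pi.smul_apply, smul_eq_mul, vec, if_pos (mem_range.mp hi)]
    · apply Finset.sum_congr rfl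
      intro m _
      have h1 : ¬ (e + m < e) := by omega
      have h2 : e + m - e = m := by omega
      simp only [Pi.smul_apply, smul_eq_mul, vec, if_neg h1, h2]
  have hc0 : (∑ i ∈ range (e + k), (ε i : ℝ) • vec e i) 0 = (A : ℝ) / 100000 := by
    rw [hcoord]
    have z : ∑ i ∈ range e, (ε i : ℝ) * (if (0 : Fin (e + 2)).val = i + 2 then 1 else 0) = 0 := by
      apply Finset.sum_eq_zero
      intro i _
      simp
    rw [z, zero_add, hA]
    push_cast
    rw [Finset.sum_div]
    apply Finset.sum_congr rfl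
    intro m _
    simp only [Fin.val_zero, if_true, pa]
    ring
  have hc1 : (∑ i ∈ range (e + k), (ε i : ℝ) • vec e i) 1 = (B : ℝ) / 100000 := by
    rw [hcoord]
    have z : ∑ i ∈ range e, (ε i : ℝ) * (if (1 : Fin (e + 2)).val = i + 2 then 1 else 0) = 0 := by
      apply Finset.sum_eq_zero
      intro i _
      have : ¬ ((1 : Fin (e + 2)).val = i + 2) := by
        simp only [Fin.val_one]; omega
      rw [if_neg this, mul_zero]
    rw [z, zero_add, hB]
    push_cast
    rw [Finset.sum_div]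
    apply Finset.sum_congr rfl
    intro m _
    simp only [Fin.val_one, one_ne_zero, if_false, if_true, pb]
    ring
  have hcj : ∀ j : Fin e, ((∑ i ∈ range (e + k), (ε i : ℝ) • vec e i) j.succ.succ) ^ 2 = 1 := by
    intro j
    rw [hcoord]
    have z : ∑ m ∈ range k, (ε (e + m) : ℝ) *
        (if (j.succ.succ : Fin (e + 2)).val = 0 then pa m
          else if (j.succ.succ : Fin (e + 2)).val = 1 then pb m else 0) = 0 := by
      apply Finset.sum_eq_zero
      intro m _
      have h1 : ¬ ((j.succ.succ : Fin (e + 2)).val = 0) := by simp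
      have h2 : ¬ ((j.succ.succ : Fin (e + 2)).val = 1) := by simp
      rw [if_neg h1, if_neg h2, mul_zero]
    rw [z, add_zero, Finset.sum_eq_single j.val]
    · simp only [Fin.val_succ, if_true, mul_one]
      rcases hε j.val with h | h <;> rw [h] <;> norm_num
    · intro i _ hij
      have : ¬ ((j.succ.succ : Fin (e + 2)).val = i + 2) := by
        simp only [Fin.val_succ]; omega
      rw [if_neg this, mul_zero]
    · intro h
      exact absurd (mem_range.mpr j.isLt) h
  rw [sqn_split, hc0, hc1]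
  simp only [hcj]
  simp only [zero_add] at hC
  have hC' : (29900000000 : ℝ) ≤ (A : ℝ) ^ 2 + (B : ℝ) ^ 2 := by exact_mod_cast hC
  simp only [sum_const, card_univ, Fintype.card_fin, nsmul_eq_mul, mul_one]
  push_cast
  rw [div_pow, div_pow]
  have : (A : ℝ) ^ 2 / 100000 ^ 2 + (B : ℝ) ^ 2 / 100000 ^ 2
      = ((A : ℝ) ^ 2 + (B : ℝ) ^ 2) / 10000000000 := by ring
  rw [this]
  have h3 : (299 : ℝ) / 100 ≤ ((A : ℝ) ^ 2 + (B : ℝ) ^ 2) / 10000000000 := by
    rw [le_div_iff₀ (by norm_num)]
    linarith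
  linarith


/-! ### Three base coordinates -/

/-- The analogue of `forcedZ` for integer vectors with three coordinates. -/
def forcedZ3 (C : ℤ) : List (ℤ × ℤ × ℤ) → ℤ → ℤ → ℤ → Bool
  | [], a, b, c => decide (C ≤ a * a + b * b + c * c)
  | p :: L, a, b, c => decide (C ≤ a * a + b * b + c * c) ||
      (forcedZ3 C L (a + p.1) (b + p.2.1) (c + p.2.2) &&
        forcedZ3 C L (a - p.1) (b - p.2.1) (c - p.2.2))

theorem forcedZ3_spec (C : ℤ) : ∀ (L : List (ℤ × ℤ × ℤ)) (a b c : ℤ),
    forcedZ3 C L a b c = true →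
    ∀ ε : ℕ → ℤ, (∀ i, ε i = 1 ∨ ε i = -1) → ∃ k ≤ L.length,
      C ≤ (a + ∑ i ∈ range k, ε i * (L.getD i (0, 0, 0)).1) ^ 2
        + (b + ∑ i ∈ range k, ε i * (L.getD i (0, 0, 0)).2.1) ^ 2
        + (c + ∑ i ∈ range k, ε i * (L.getD i (0, 0, 0)).2.2) ^ 2 := by
  intro L
  induction L with
  | nil =>
    intro a b c h ε _
    refine ⟨0, le_refl _, ?_⟩
    simp only [forcedZ3, decide_eq_true_eq] at h
    simp only [range_zero, sum_empty, add_zero]
    nlinarith
  | cons p L ih =>
    intro a b c h ε hε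
    simp only [forcedZ3, Bool.or_eq_true, decide_eq_true_eq, Bool.and_eq_true] at h
    rcases h with h | ⟨h1, h2⟩
    · refine ⟨0, Nat.zero_le _, ?_⟩
      simp only [range_zero, sum_empty, add_zero]
      nlinarith
    · rcases hε 0 with h0 | h0
      · obtain ⟨k, hk, hC⟩ := ih _ _ _ h1 (fun i => ε (i + 1)) (fun i => hε (i + 1))
        refine ⟨k + 1, by simpa using hk, ?_⟩
        rw [Finset.sum_range_succ', Finset.sum_range_succ', Finset.sum_range_succ']
        simp only [List.getD_cons_succ, List.getD_cons_zero, h0, one_mul]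
        have e1 : a + (∑ i ∈ range k, ε (i + 1) * (L.getD i (0, 0, 0)).1 + p.1)
            = a + p.1 + ∑ i ∈ range k, ε (i + 1) * (L.getD i (0, 0, 0)).1 := by ring
        have e2 : b + (∑ i ∈ range k, ε (i + 1) * (L.getD i (0, 0, 0)).2.1 + p.2.1)
            = b + p.2.1 + ∑ i ∈ range k, ε (i + 1) * (L.getD i (0, 0, 0)).2.1 := by ring
        have e3 : c + (∑ i ∈ range k, ε (i + 1) * (L.getD i (0, 0, 0)).2.2 + p.2.2)
            = c + p.2.2 + ∑ i ∈ range k, ε (i + 1) * (L.getD i (0, 0, 0)).2.2 := by ring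
        rw [e1, e2, e3]
        exact hC
      · obtain ⟨k, hk, hC⟩ := ih _ _ _ h2 (fun i => ε (i + 1)) (fun i => hε (i + 1))
        refine ⟨k + 1, by simpa using hk, ?_⟩
        rw [Finset.sum_range_succ', Finset.sum_range_succ', Finset.sum_range_succ']
        simp only [List.getD_cons_succ, List.getD_cons_zero, h0]
        have e1 : a + (∑ i ∈ range k, ε (i + 1) * (L.getD i (0, 0, 0)).1 + -1 * p.1)
            = a - p.1 + ∑ i ∈ range k, ε (i + 1) * (L.getD i (0, 0, 0)).1 := by ring
        have e2 : b + (∑ i ∈ range k, ε (i + 1) * (L.getD i (0, 0, 0)).2.1 + -1 * p.2.1)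
            = b - p.2.1 + ∑ i ∈ range k, ε (i + 1) * (L.getD i (0, 0, 0)).2.1 := by ring
        have e3 : c + (∑ i ∈ range k, ε (i + 1) * (L.getD i (0, 0, 0)).2.2 + -1 * p.2.2)
            = c - p.2.2 + ∑ i ∈ range k, ε (i + 1) * (L.getD i (0, 0, 0)).2.2 := by ring
        rw [e1, e2, e3]
        exact hC

/-- Vectors of the unit ball of `ℝ^3`, scaled by `100000`. -/
def spatial : List (ℤ × ℤ × ℤ) :=
  [(93958, 7949, -33287), (-30696, -75231, -58287), (-3514, -77138, 63536),
   (-46484, -78412, -41111), (-19089, -67520, -71246), (53764, 72119, -43676),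
   (-14134, -97351, -17956), (-28224, 94939, 13761), (23945, -73067, -63932),
   (33718, -85987, -38324), (16071, -13893, 97714), (64053, -74115, -20087),
   (-14682, -31599, -93730), (-5739, 68919, 72226), (-41036, 34755, -84306),
   (74067, -15221, 65436)]

theorem spatial_forced : forcedZ3 43600000000 spatial 0 0 0 = true := by decide

theorem spatial_small : ∀ i : ℕ,
    (spatial.getD i (0, 0, 0)).1 ^ 2 + (spatial.getD i (0, 0, 0)).2.1 ^ 2
      + (spatial.getD i (0, 0, 0)).2.2 ^ 2 ≤ 10000000000 := by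
  intro i
  by_cases hi : i < 16
  · interval_cases i <;> simp [spatial]
  · rw [List.getD_eq_default _ _ (by simpa [spatial] using hi)]
    norm_num

/-- coordinates of the spatial vectors -/
noncomputable def qa (m : ℕ) : ℝ := ((spatial.getD m (0, 0, 0)).1 : ℝ) / 100000

/-- coordinates of the spatial vectors -/
noncomputable def qb (m : ℕ) : ℝ := ((spatial.getD m (0, 0, 0)).2.1 : ℝ) / 100000

/-- coordinates of the spatial vectors -/
noncomputable def qc (m : ℕ) : ℝ := ((spatial.getD m (0, 0, 0)).2.2 : ℝ) / 100000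

/-- The sequence in `ℝ^(e+3)`: first the unit vectors of the coordinates `3, ..., e+2`, then the
spatial vectors placed in the coordinates `0, 1, 2`. -/
noncomputable def vec3 (e : ℕ) (i : ℕ) : Fin (e + 3) → ℝ :=
  if i < e then (fun j => if j.val = i + 3 then 1 else 0)
  else (fun j => if j.val = 0 then qa (i - e) else if j.val = 1 then qb (i - e)
    else if j.val = 2 then qc (i - e) else 0)

theorem sqn_split3 {e : ℕ} (x : Fin (e + 3) → ℝ) :
    sqn x = (x 0) ^ 2 + (x (Fin.succ 0)) ^ 2 + (x (Fin.succ (Fin.succ 0))) ^ 2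
      + ∑ j : Fin e, (x j.succ.succ.succ) ^ 2 := by
  unfold sqn
  rw [Fin.sum_univ_succ, Fin.sum_univ_succ, Fin.sum_univ_succ]
  ring

theorem vec3_small (e i : ℕ) : sqn (vec3 e i) ≤ 1 := by
  rw [sqn_split3]
  by_cases hi : i < e
  · simp only [vec3, if_pos hi]
    have h0 : ¬ ((0 : Fin (e + 3)).val = i + 3) := by simp
    have h1 : ¬ ((Fin.succ (0 : Fin (e + 2))).val = i + 3) := by
      simp only [Fin.val_succ, Fin.val_zero]; omega
    have h2 : ¬ ((Fin.succ (Fin.succ (0 : Fin (e + 1)))).val = i + 3) := by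
      simp only [Fin.val_succ, Fin.val_zero]; omega
    rw [if_neg h0, if_neg h1, if_neg h2]
    have : ∑ j : Fin e, (if (j.succ.succ.succ : Fin (e + 3)).val = i + 3 then (1 : ℝ) else 0) ^ 2
        = ∑ j : Fin e, (if j = ⟨i, hi⟩ then (1 : ℝ) else 0) := by
      apply Finset.sum_congr rfl
      intro j _
      by_cases hj : j = ⟨i, hi⟩
      · subst hj; simp
      · have : ¬ ((j.succ.succ.succ : Fin (e + 3)).val = i + 3) := by
          intro h
          apply hj
          apply Fin.ext
          simp only [Fin.val_succ] at h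
          simp only
          omega
        rw [if_neg this, if_neg hj]
        norm_num
    rw [this]
    simp
  · simp only [vec3, if_neg hi]
    have hs := spatial_small (i - e)
    have hs' : ((spatial.getD (i - e) (0, 0, 0)).1 : ℝ) ^ 2
        + ((spatial.getD (i - e) (0, 0, 0)).2.1 : ℝ) ^ 2
        + ((spatial.getD (i - e) (0, 0, 0)).2.2 : ℝ) ^ 2 ≤ 10000000000 := by exact_mod_cast hs
    have hz : ∀ j : Fin e, (if (j.succ.succ.succ : Fin (e + 3)).val = 0 then qa (i - e)
        else if (j.succ.succ.succ : Fin (e + 3)).val = 1 then qb (i - e)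
        else if (j.succ.succ.succ : Fin (e + 3)).val = 2 then qc (i - e) else 0) = 0 := by
      intro j
      have hv : (j.succ.succ.succ : Fin (e + 3)).val = j.val + 3 := by simp [Fin.val_succ]
      rw [if_neg (by omega), if_neg (by omega), if_neg (by omega)]
    simp only [hz]
    have v0 : (0 : Fin (e + 3)).val = 0 := rfl
    have v1 : (Fin.succ (0 : Fin (e + 2))).val = 1 := rfl
    have v2 : (Fin.succ (Fin.succ (0 : Fin (e + 1)))).val = 2 := rfl
    rw [if_pos v0, if_neg (by omega), if_pos v1, if_neg (by omega), if_neg (by omega), if_pos v2]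
    simp only [ne_eq, OfNat.ofNat_ne_zero, not_false_eq_true, zero_pow, sum_const_zero, add_zero,
      qa, qb, qc]
    rw [div_pow, div_pow, div_pow]
    have : ((spatial.getD (i - e) (0, 0, 0)).1 : ℝ) ^ 2 / 100000 ^ 2
        + ((spatial.getD (i - e) (0, 0, 0)).2.1 : ℝ) ^ 2 / 100000 ^ 2
        + ((spatial.getD (i - e) (0, 0, 0)).2.2 : ℝ) ^ 2 / 100000 ^ 2
        = (((spatial.getD (i - e) (0, 0, 0)).1 : ℝ) ^ 2
          + ((spatial.getD (i - e) (0, 0, 0)).2.1 : ℝ) ^ 2
          + ((spatial.getD (i - e) (0, 0, 0)).2.2 : ℝ) ^ 2) / 10000000000 := by ring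
    rw [this, div_le_one (by norm_num)]
    exact hs'

theorem main3 (e : ℕ) (ε : ℕ → ℤ) (hε : ∀ i, ε i = 1 ∨ ε i = -1) :
    ∃ k ≤ e + 16, ((e + 3 : ℕ) : ℝ) + 136 / 100 ≤ sqn (∑ i ∈ range k, (ε i : ℝ) • vec3 e i) := by
  obtain ⟨k, hk, hC⟩ := forcedZ3_spec _ spatial 0 0 0 spatial_forced (fun m => ε (e + m))
    (fun m => hε (e + m))
  refine ⟨e + k, by simpa [spatial] using hk, ?_⟩
  set A : ℤ := ∑ i ∈ range k, ε (e + i) * (spatial.getD i (0, 0, 0)).1 with hA
  set B : ℤ := ∑ i ∈ range k, ε (e + i) * (spatial.getD i (0, 0, 0)).2.1 with hB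
  set Cc : ℤ := ∑ i ∈ range k, ε (e + i) * (spatial.getD i (0, 0, 0)).2.2 with hCc
  have hcoord : ∀ j : Fin (e + 3), (∑ i ∈ range (e + k), (ε i : ℝ) • vec3 e i) j
      = ∑ i ∈ range e, (ε i : ℝ) * (if j.val = i + 3 then 1 else 0)
        + ∑ m ∈ range k, (ε (e + m) : ℝ) *
          (if j.val = 0 then qa m else if j.val = 1 then qb m
            else if j.val = 2 then qc m else 0) := by
    intro j
    rw [Finset.sum_apply, Finset.sum_range_add]
    congr 1
    · apply Finset.sum_congr rfl
      intro i hi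
      simp only [Pi.smul_apply, smul_eq_mul, vec3, if_pos (mem_range.mp hi)]
    · apply Finset.sum_congr rfl
      intro m _
      have h1 : ¬ (e + m < e) := by omega
      have h2 : e + m - e = m := by omega
      simp only [Pi.smul_apply, smul_eq_mul, vec3, if_neg h1, h2]
  have hlow : ∀ j : Fin (e + 3), j.val < 3 →
      ∑ i ∈ range e, (ε i : ℝ) * (if j.val = i + 3 then 1 else 0) = 0 := by
    intro j hj
    apply Finset.sum_eq_zero
    intro i _
    rw [if_neg (by omega), mul_zero]
  have v0 : (0 : Fin (e + 3)).val = 0 := rfl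
  have v1 : (Fin.succ (0 : Fin (e + 2))).val = 1 := rfl
  have v2 : (Fin.succ (Fin.succ (0 : Fin (e + 1)))).val = 2 := rfl
  have hc0 : (∑ i ∈ range (e + k), (ε i : ℝ) • vec3 e i) 0 = (A : ℝ) / 100000 := by
    rw [hcoord, hlow _ (by omega), zero_add, hA]
    push_cast
    rw [Finset.sum_div]
    apply Finset.sum_congr rfl
    intro m _
    rw [if_pos v0, qa]
    ring
  have hc1 : (∑ i ∈ range (e + k), (ε i : ℝ) • vec3 e i) (Fin.succ 0) = (B : ℝ) / 100000 := by
    rw [hcoord, hlow _ (by omega), zero_add, hB]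
    push_cast
    rw [Finset.sum_div]
    apply Finset.sum_congr rfl
    intro m _
    rw [if_neg (by omega), if_pos v1, qb]
    ring
  have hc2 : (∑ i ∈ range (e + k), (ε i : ℝ) • vec3 e i) (Fin.succ (Fin.succ 0))
      = (Cc : ℝ) / 100000 := by
    rw [hcoord, hlow _ (by omega), zero_add, hCc]
    push_cast
    rw [Finset.sum_div]
    apply Finset.sum_congr rfl
    intro m _
    rw [if_neg (by omega), if_neg (by omega), if_pos v2, qc]
    ring
  have hcj : ∀ j : Fin e,
      ((∑ i ∈ range (e + k), (ε i : ℝ) • vec3 e i) j.succ.succ.succ) ^ 2 = 1 := by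
    intro j
    have hv : (j.succ.succ.succ : Fin (e + 3)).val = j.val + 3 := by simp [Fin.val_succ]
    rw [hcoord]
    have z : ∑ m ∈ range k, (ε (e + m) : ℝ) *
        (if (j.succ.succ.succ : Fin (e + 3)).val = 0 then qa m
          else if (j.succ.succ.succ : Fin (e + 3)).val = 1 then qb m
          else if (j.succ.succ.succ : Fin (e + 3)).val = 2 then qc m else 0) = 0 := by
      apply Finset.sum_eq_zero
      intro m _
      rw [if_neg (by omega), if_neg (by omega), if_neg (by omega), mul_zero]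
    rw [z, add_zero, Finset.sum_eq_single j.val]
    · rw [if_pos hv, mul_one]
      rcases hε j.val with h | h <;> rw [h] <;> norm_num
    · intro i _ hij
      rw [if_neg (by omega), mul_zero]
    · intro h
      exact absurd (mem_range.mpr j.isLt) h
  rw [sqn_split3, hc0, hc1, hc2]
  simp only [hcj]
  simp only [zero_add] at hC
  have hC' : (43600000000 : ℝ) ≤ (A : ℝ) ^ 2 + (B : ℝ) ^ 2 + (Cc : ℝ) ^ 2 := by exact_mod_cast hC
  simp only [sum_const, card_univ, Fintype.card_fin, nsmul_eq_mul, mul_one]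
  push_cast
  rw [div_pow, div_pow, div_pow]
  have : (A : ℝ) ^ 2 / 100000 ^ 2 + (B : ℝ) ^ 2 / 100000 ^ 2 + (Cc : ℝ) ^ 2 / 100000 ^ 2
      = ((A : ℝ) ^ 2 + (B : ℝ) ^ 2 + (Cc : ℝ) ^ 2) / 10000000000 := by ring
  rw [this]
  have h3 : (3 : ℝ) + 136 / 100 ≤ ((A : ℝ) ^ 2 + (B : ℝ) ^ 2 + (Cc : ℝ) ^ 2) / 10000000000 := by
    rw [le_div_iff₀ (by norm_num)]
    linarith
  linarith

/-- In every dimension `d ≥ 2` there is a finite sequence in the Euclidean unit ball such that every
signing has an initial partial sum of squared norm at least `d + 0.99`; in every dimension `d ≥ 3`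
there is one for which the squared norm reaches at least `d + 1.36`. -/
theorem result :
    (∀ d : ℕ, 2 ≤ d →
      ∃ (N : ℕ) (v : ℕ → Fin d → ℝ), (∀ i, sqn (v i) ≤ 1) ∧
        ∀ ε : ℕ → ℤ, (∀ i, ε i = 1 ∨ ε i = -1) →
          ∃ k ≤ N, (d : ℝ) + 99 / 100 ≤ sqn (∑ i ∈ range k, (ε i : ℝ) • v i)) ∧
    (∀ d : ℕ, 3 ≤ d →
      ∃ (N : ℕ) (v : ℕ → Fin d → ℝ), (∀ i, sqn (v i) ≤ 1) ∧
        ∀ ε : ℕ → ℤ, (∀ i, ε i = 1 ∨ ε i = -1) →
          ∃ k ≤ N, (d : ℝ) + 136 / 100 ≤ sqn (∑ i ∈ range k, (ε i : ℝ) • v i)) := by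
  constructor
  · intro d hd
    obtain ⟨e, rfl⟩ : ∃ e, d = e + 2 := ⟨d - 2, by omega⟩
    exact ⟨e + 9, vec e, vec_small e, main e⟩
  · intro d hd
    obtain ⟨e, rfl⟩ : ∃ e, d = e + 3 := ⟨d - 3, by omega⟩
    exact ⟨e + 16, vec3 e, vec3_small e, main3 e⟩

end Vale.Agent.Results.P262.LowerBound
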